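import Mathlib
import Vale.Agent.Lib.P328.RP.Defs

/-!
P328: the `3 × n` tables with two unit rows, enumerated by the columns of the two units.

Rows `k` and `a` have sum `1`, the third row `b` carries the rest.  A table is determined by the
column `j` of the unit of row `k` and the column `J` of the unit of row `a`; the pair `(J, j)` is
admissible iff both column sums are positive and, when `J = j`, the column sum is at least `2`.
-/

namespace Vale.Agent.Lib.P328.H48

open Finset
open Vale.Agent.Lib.P328.RP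

/-- every index of `Fin 3` is one of three distinct ones -/
theorem cases3 : ∀ k a b : Fin 3, k ≠ a → k ≠ b → a ≠ b → ∀ i : Fin 3, i = k ∨ i = a ∨ i = b := by
  decide

/-- sums over `Fin 3` through three distinct indices -/
theorem sum3 {k a b : Fin 3} (hka : k ≠ a) (hkb : k ≠ b) (hab : a ≠ b) (G : Fin 3 → ℕ) :
    ∑ i, G i = G k + (G a + G b) := by
  have hu : (univ : Finset (Fin 3)) = {k, a, b} := by
    revert k a b
    decide
  rw [hu, Finset.sum_insert (by simp [hka, hkb]), Finset.sum_insert (by simp [hab]),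
    Finset.sum_singleton]

/-- a vector of natural numbers with sum `1` is a unit vector -/
theorem unit_vec {n : ℕ} (v : Fin n → ℕ) (hv : ∑ l, v l = 1) :
    ∃ J : Fin n, ∀ l, v l = if l = J then 1 else 0 := by
  classical
  have hex : ∃ J, v J ≠ 0 := by
    by_contra hcon
    push Not at hcon
    have : ∑ l, v l = 0 := Finset.sum_eq_zero (fun l _ => hcon l)
    omega
  obtain ⟨J, hJ⟩ := hex
  have hsplit : v J + ∑ l ∈ univ.erase J, v l = 1 := by
    rw [Finset.add_sum_erase _ _ (Finset.mem_univ J)]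
    exact hv
  have hJ1 : v J = 1 := by omega
  have hrest : ∑ l ∈ univ.erase J, v l = 0 := by omega
  refine ⟨J, fun l => ?_⟩
  by_cases hl : l = J
  · rw [if_pos hl, hl, hJ1]
  · rw [if_neg hl]
    exact (Finset.sum_eq_zero_iff.mp hrest) l (Finset.mem_erase.mpr ⟨hl, Finset.mem_univ l⟩)

/-- The array with a unit of row `k` in column `j`, a unit of row `a` in column `J`, and the rest
of the column sums `c` in the remaining row. -/
def mkT {n : ℕ} (k a : Fin 3) (c : Fin n → ℕ) (J j : Fin n) : Fin 3 → Fin n → ℕ :=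
  fun i l => if i = k then (if l = j then 1 else 0)
    else if i = a then (if l = J then 1 else 0)
    else c l - (if l = J then 1 else 0) - (if l = j then 1 else 0)

/-- Admissible pairs of columns: both column sums are positive, and a common column has sum at
least `2`. -/
def Adm {n : ℕ} (c : Fin n → ℕ) (J j : Fin n) : Prop :=
  1 ≤ c J ∧ 1 ≤ c j ∧ (J = j → 2 ≤ c J)

instance instDecidableAdm {n : ℕ} (c : Fin n → ℕ) (J j : Fin n) : Decidable (Adm c J j) := by
  unfold Adm
  infer_instance

theorem Adm.symm {n : ℕ} {c : Fin n → ℕ} {J j : Fin n} (h : Adm c J j) : Adm c j J :=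
  ⟨h.2.1, h.1, fun e => by rw [e]; exact h.2.2 e.symm⟩

section mk

variable {n : ℕ} {k a b : Fin 3} {c : Fin n → ℕ}

theorem mkT_k (J j : Fin n) (l : Fin n) : mkT k a c J j k l = if l = j then 1 else 0 := by
  unfold mkT
  rw [if_pos rfl]

theorem mkT_a (hka : k ≠ a) (J j : Fin n) (l : Fin n) :
    mkT k a c J j a l = if l = J then 1 else 0 := by
  unfold mkT
  rw [if_neg (Ne.symm hka), if_pos rfl]

theorem mkT_b (hkb : k ≠ b) (hab : a ≠ b) (J j : Fin n) (l : Fin n) :
    mkT k a c J j b l = c l - (if l = J then 1 else 0) - (if l = j then 1 else 0) := by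
  unfold mkT
  rw [if_neg (Ne.symm hkb), if_neg (Ne.symm hab)]

theorem mkT_col (hka : k ≠ a) (hkb : k ≠ b) (hab : a ≠ b) {J j : Fin n} (h : Adm c J j)
    (l : Fin n) : ∑ i, mkT k a c J j i l = c l := by
  rw [sum3 hka hkb hab, mkT_k, mkT_a hka, mkT_b hkb hab]
  obtain ⟨h1, h2, h3⟩ := h
  by_cases e1 : l = J
  · by_cases e2 : l = j
    · have h4 := h3 (e1.symm.trans e2)
      rw [if_pos e1, if_pos e2]
      rw [e1]
      omega
    · rw [if_pos e1, if_neg e2]
      rw [e1]
      omega
  · by_cases e2 : l = j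
    · rw [if_neg e1, if_pos e2]
      rw [e2]
      omega
    · rw [if_neg e1, if_neg e2]
      omega

theorem mkT_row_k (J j : Fin n) : ∑ l, mkT k a c J j k l = 1 := by
  simp only [mkT_k]
  rw [Finset.sum_ite_eq' univ j (fun _ => 1)]
  simp

theorem mkT_row_a (hka : k ≠ a) (J j : Fin n) : ∑ l, mkT k a c J j a l = 1 := by
  simp only [mkT_a hka]
  rw [Finset.sum_ite_eq' univ J (fun _ => 1)]
  simp

theorem mkT_row_b (hkb : k ≠ b) (hab : a ≠ b) {J j : Fin n} (h : Adm c J j) :
    ∑ l, mkT k a c J j b l + 2 = ∑ l, c l := by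
  simp only [mkT_b hkb hab]
  have h1 : ∑ l : Fin n, (if l = J then 1 else 0) = 1 := by
    rw [Finset.sum_ite_eq' univ J (fun _ => 1)]
    simp
  have h2 : ∑ l : Fin n, (if l = j then 1 else 0) = 1 := by
    rw [Finset.sum_ite_eq' univ j (fun _ => 1)]
    simp
  have h3 : ∑ l, (c l - (if l = J then 1 else 0) - (if l = j then 1 else 0))
      + ∑ l : Fin n, (if l = J then 1 else 0) + ∑ l : Fin n, (if l = j then 1 else 0)
      = ∑ l, c l := by
    rw [← Finset.sum_add_distrib, ← Finset.sum_add_distrib]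
    refine Finset.sum_congr rfl (fun l _ => ?_)
    obtain ⟨g1, g2, g3⟩ := h
    by_cases e1 : l = J
    · by_cases e2 : l = j
      · have g4 := g3 (e1.symm.trans e2)
        rw [if_pos e1, if_pos e2]
        rw [e1]
        omega
      · rw [if_pos e1, if_neg e2]
        rw [e1]
        omega
    · by_cases e2 : l = j
      · rw [if_neg e1, if_pos e2]
        rw [e2]
        omega
      · rw [if_neg e1, if_neg e2]
        omega
  omega

end mk

section ct

variable {n : ℕ} {k a b : Fin 3} {r : Fin 3 → ℕ} {c : Fin n → ℕ}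

/-- The table of an admissible pair of columns. -/
def mkCT (hka : k ≠ a) (hkb : k ≠ b) (hab : a ≠ b) (hk : r k = 1) (ha : r a = 1)
    (hb : r b + 2 = ∑ l, c l) (J j : Fin n) (h : Adm c J j) : CT 3 n r c :=
  ⟨mkT k a c J j, by
    constructor
    · intro i
      rcases cases3 k a b hka hkb hab i with e | e | e
      · rw [e, mkT_row_k, hk]
      · rw [e, mkT_row_a hka, ha]
      · rw [e]
        have h1 := mkT_row_b (k := k) (a := a) hkb hab h
        omega
    · intro l
      exact mkT_col hka hkb hab h l⟩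

theorem mkCT_val (hka : k ≠ a) (hkb : k ≠ b) (hab : a ≠ b) (hk : r k = 1) (ha : r a = 1)
    (hb : r b + 2 = ∑ l, c l) (J j : Fin n) (h : Adm c J j) :
    (mkCT hka hkb hab hk ha hb J j h).1 = mkT k a c J j := rfl

/-- the total of a table with two unit rows -/
theorem total_of_table (hka : k ≠ a) (hkb : k ≠ b) (hab : a ≠ b) (hk : r k = 1) (ha : r a = 1)
    (x : CT 3 n r c) : r b + 2 = ∑ l, c l := by
  have h1 : ∑ l, c l = ∑ l, ∑ i, x.1 i l := Finset.sum_congr rfl (fun l _ => (x.2.2 l).symm)
  rw [h1, Finset.sum_comm, Finset.sum_congr rfl (fun i _ => x.2.1 i), sum3 hka hkb hab, hk, ha]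
  omega

/-- every table with two unit rows comes from an admissible pair -/
theorem exists_rep (hka : k ≠ a) (hkb : k ≠ b) (hab : a ≠ b) (hk : r k = 1) (ha : r a = 1)
    (x : CT 3 n r c) : ∃ J j, Adm c J j ∧ x.1 = mkT k a c J j := by
  obtain ⟨j, hj⟩ := unit_vec (x.1 k) (by rw [x.2.1 k, hk])
  obtain ⟨J, hJ⟩ := unit_vec (x.1 a) (by rw [x.2.1 a, ha])
  have hcol : ∀ l, x.1 k l + (x.1 a l + x.1 b l) = c l := by
    intro l
    rw [← sum3 hka hkb hab (fun i => x.1 i l)]
    exact x.2.2 l
  have hJJ : x.1 a J = 1 := by rw [hJ J, if_pos rfl]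
  have hjj : x.1 k j = 1 := by rw [hj j, if_pos rfl]
  refine ⟨J, j, ⟨?_, ?_, ?_⟩, ?_⟩
  · have h1 := hcol J
    omega
  · have h1 := hcol j
    omega
  · intro e
    have h1 := hcol J
    have h2 : x.1 k J = 1 := by rw [e]; exact hjj
    omega
  · funext i l
    rcases cases3 k a b hka hkb hab i with e | e | e
    · rw [e, mkT_k, hj]
    · rw [e, mkT_a hka, hJ]
    · rw [e, mkT_b hkb hab]
      have h1 := hcol l
      rw [hj l, hJ l] at h1
      by_cases e1 : l = J
      · by_cases e2 : l = j
        · rw [if_pos e1, if_pos e2] at h1 ⊢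
          omega
        · rw [if_pos e1, if_neg e2] at h1 ⊢
          omega
      · by_cases e2 : l = j
        · rw [if_neg e1, if_pos e2] at h1 ⊢
          omega
        · rw [if_neg e1, if_neg e2] at h1 ⊢
          omega

theorem mkT_inj (hka : k ≠ a) {J j J' j' : Fin n} (h : mkT k a c J j = mkT k a c J' j') :
    J = J' ∧ j = j' := by
  constructor
  · have h1 := congrFun (congrFun h a) J
    rw [mkT_a hka, mkT_a hka, if_pos rfl] at h1
    by_contra hne
    rw [if_neg hne] at h1
    exact one_ne_zero h1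
  · have h1 := congrFun (congrFun h k) j
    rw [mkT_k, mkT_k, if_pos rfl] at h1
    by_contra hne
    rw [if_neg hne] at h1
    exact one_ne_zero h1

/-- Sums over the tables with two unit rows as sums over admissible pairs of columns. -/
theorem sum_CT (hka : k ≠ a) (hkb : k ≠ b) (hab : a ≠ b) (hk : r k = 1) (ha : r a = 1)
    (hb : r b + 2 = ∑ l, c l) (F : (Fin 3 → Fin n → ℕ) → ℝ) :
    ∑ x : CT 3 n r c, F x.1 = ∑ J, ∑ j, if Adm c J j then F (mkT k a c J j) else 0 := by
  classical
  have h1 : ∑ J, ∑ j, (if Adm c J j then F (mkT k a c J j) else 0)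
      = ∑ p ∈ (univ : Finset (Fin n × Fin n)).filter (fun p => Adm c p.1 p.2),
          F (mkT k a c p.1 p.2) := by
    rw [Finset.sum_filter, Fintype.sum_prod_type]
  rw [h1]
  symm
  refine Finset.sum_bij
    (fun p hp => mkCT hka hkb hab hk ha hb p.1 p.2 (Finset.mem_filter.mp hp).2)
    (fun _ _ => Finset.mem_univ _) ?_ ?_ (fun _ _ => rfl)
  · intro p hp p' hp' h
    have h' := congrArg Subtype.val h
    rw [mkCT_val, mkCT_val] at h'
    obtain ⟨e1, e2⟩ := mkT_inj hka h'
    exact Prod.ext e1 e2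
  · intro x _
    obtain ⟨J, j, hadm, hx⟩ := exists_rep hka hkb hab hk ha x
    exact ⟨(J, j), Finset.mem_filter.mpr ⟨Finset.mem_univ _, hadm⟩, Subtype.ext hx.symm⟩

/-- Sums over the tables with a given row `a`. -/
theorem sum_CT_row (hka : k ≠ a) (hkb : k ≠ b) (hab : a ≠ b) (hk : r k = 1) (ha : r a = 1)
    (hb : r b + 2 = ∑ l, c l) (x0 : CT 3 n r c) (J0 : Fin n)
    (hJ0 : ∀ l, x0.1 a l = if l = J0 then 1 else 0) (F : (Fin 3 → Fin n → ℕ) → ℝ) :
    ∑ x ∈ univ.filter (fun x : CT 3 n r c => x.1 a = x0.1 a), F x.1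
      = ∑ j, if Adm c J0 j then F (mkT k a c J0 j) else 0 := by
  classical
  have hiff : ∀ J j, (mkT k a c J j a = x0.1 a) ↔ J = J0 := by
    intro J j
    constructor
    · intro h
      have h1 := congrFun h J
      rw [mkT_a hka, if_pos rfl, hJ0 J] at h1
      by_contra hne
      rw [if_neg hne] at h1
      exact one_ne_zero h1
    · intro h
      funext l
      rw [mkT_a hka, hJ0 l, h]
  have h2 := sum_CT hka hkb hab hk ha hb (fun M => if M a = x0.1 a then F M else 0)
  rw [Finset.sum_filter]
  refine h2.trans ?_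
  rw [Finset.sum_eq_single J0]
  · refine Finset.sum_congr rfl (fun j _ => ?_)
    by_cases hA : Adm c J0 j
    · rw [if_pos hA, if_pos hA, if_pos ((hiff J0 j).mpr rfl)]
    · rw [if_neg hA, if_neg hA]
  · intro J _ hne
    refine Finset.sum_eq_zero (fun j _ => ?_)
    by_cases hA : Adm c J j
    · rw [if_pos hA, if_neg (fun h => hne ((hiff J j).mp h))]
    · rw [if_neg hA]
  · intro h
    exact absurd (Finset.mem_univ _) h

end ct

end Vale.Agent.Lib.P328.H48
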