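import Mathlib
import Vale.Agent.Lib.P328.RP.Defs
import Vale.Agent.Lib.P328.RP.Dual
import Vale.Agent.Lib.P328.RP.Family
import Vale.Agent.Lib.P328.helper48.UnitEnum

/-!
P328: the three-row inequality for `3 × n` tables in which two of the three row sums are at
most `1` (all column sums), through the dual criterion `threeRow_of_dual`.

For two unit rows `k`, `a` and a centred function `φ` of row `k`, written `ψ j` on the tables
whose row `k` has its unit in column `j`, the certificate is
`z2 = (A j - A J) / p`, `z1 = φ - z2` on the table with units in columns `j` (row `k`) and `J`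
(row `a`), where `A l = ψ l` if the column sum `c l` is `1` and `0` otherwise, and `p` is the
number of columns with positive sum.
-/

namespace Vale.Agent.Lib.P328.H48

open Finset
open Vale.Agent.Lib.P335.Bip
open Vale.Agent.Lib.P328.RP

section algebra

/-- the indicator of admissibility, split into a product part and a diagonal part -/
theorem adm_ite {n : ℕ} (c : Fin n → ℕ) (J j : Fin n) (G : Fin n → Fin n → ℝ) :
    (if Adm c J j then G J j else 0)
      = (if 1 ≤ c J then (if 1 ≤ c j then G J j else 0) else 0)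
        - (if J = j then (if 1 ≤ c J then (if c J = 1 then G J J else 0) else 0) else 0) := by
  by_cases h1 : 1 ≤ c J
  · by_cases h2 : 1 ≤ c j
    · by_cases e : J = j
      · subst e
        by_cases h3 : c J = 1
        · have hn : ¬ Adm c J J := by
            rintro ⟨_, _, h⟩
            have := h rfl
            omega
          rw [if_neg hn, if_pos h1, if_pos h1, if_pos rfl, if_pos h1, if_pos h3]
          ring
        · have hy : Adm c J J := ⟨h1, h1, fun _ => by omega⟩
          rw [if_pos hy, if_pos h1, if_pos h1, if_pos rfl, if_pos h1, if_neg h3]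
          ring
      · have hy : Adm c J j := ⟨h1, h2, fun h => absurd h e⟩
        rw [if_pos hy, if_pos h1, if_pos h2, if_neg e]
        ring
    · have hn : ¬ Adm c J j := fun h => h2 h.2.1
      have e : J ≠ j := by
        intro e
        rw [e] at h1
        exact h2 h1
      rw [if_neg hn, if_pos h1, if_neg h2, if_neg e]
      ring
  · have hn : ¬ Adm c J j := fun h => h1 h.1
    rw [if_neg hn, if_neg h1]
    by_cases e : J = j
    · rw [if_pos e, if_neg h1]
      ring
    · rw [if_neg e]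
      ring

/-- a double sum over admissible pairs -/
theorem adm_sum2 {n : ℕ} (c : Fin n → ℕ) (G : Fin n → Fin n → ℝ) :
    ∑ J, ∑ j, (if Adm c J j then G J j else 0)
      = ∑ J ∈ univ.filter (fun l => 1 ≤ c l), ∑ j ∈ univ.filter (fun l => 1 ≤ c l), G J j
        - ∑ J ∈ univ.filter (fun l => 1 ≤ c l), (if c J = 1 then G J J else 0) := by
  simp only [adm_ite c _ _ G, Finset.sum_sub_distrib]
  congr 1
  · rw [Finset.sum_filter]
    refine Finset.sum_congr rfl (fun J _ => ?_)
    by_cases h1 : 1 ≤ c J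
    · simp only [if_pos h1]
      rw [Finset.sum_filter]
    · simp only [if_neg h1]
      exact Finset.sum_const_zero
  · rw [Finset.sum_filter]
    refine Finset.sum_congr rfl (fun J _ => ?_)
    rw [Finset.sum_ite_eq univ J (fun _ => if 1 ≤ c J then (if c J = 1 then G J J else 0) else 0)]
    simp

/-- a single sum over the admissible partners of a column with positive sum -/
theorem adm_sum1 {n : ℕ} (c : Fin n → ℕ) (J0 : Fin n) (h0 : 1 ≤ c J0) (G : Fin n → ℝ) :
    ∑ j, (if Adm c J0 j then G j else 0)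
      = ∑ j ∈ univ.filter (fun l => 1 ≤ c l), G j - (if c J0 = 1 then G J0 else 0) := by
  have h := fun j => adm_ite c J0 j (fun _ j => G j)
  simp only [h, Finset.sum_sub_distrib, if_pos h0]
  congr 1
  · rw [Finset.sum_filter]
  · rw [Finset.sum_ite_eq univ J0 (fun _ => if c J0 = 1 then G J0 else 0)]
    simp

/-- the row identity -/
theorem alg_row {ι : Type*} (P : Finset ι) (ψ A : ι → ℝ) (J0 : ι) (hJ0 : J0 ∈ P)
    (hcen : (P.card : ℝ) * ∑ l ∈ P, ψ l = ∑ l ∈ P, A l) :
    ∑ j ∈ P, (ψ j - (A j - A J0) / (P.card : ℝ)) = A J0 := by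
  have hp0 : (P.card : ℝ) ≠ 0 := by
    have : 0 < P.card := Finset.card_pos.mpr ⟨J0, hJ0⟩
    exact_mod_cast this.ne'
  rw [Finset.sum_sub_distrib, ← Finset.sum_div, Finset.sum_sub_distrib, Finset.sum_const,
    nsmul_eq_mul, ← hcen]
  field_simp
  ring

/-- the cross term is nonnegative -/
theorem alg_cross {ι : Type*} (P : Finset ι) (ψ A : ι → ℝ)
    (hA : ∀ l ∈ P, ψ l * A l = A l * A l) (h2 : 2 ≤ P.card)
    (hcen : (P.card : ℝ) * ∑ l ∈ P, ψ l = ∑ l ∈ P, A l) :
    0 ≤ ∑ J ∈ P, ∑ j ∈ P,
      (ψ j - (A j - A J) / (P.card : ℝ)) * ((A j - A J) / (P.card : ℝ)) := by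
  set p : ℝ := (P.card : ℝ) with hp
  have hp2 : (2 : ℝ) ≤ p := by
    rw [hp]
    exact_mod_cast h2
  have hp0 : p ≠ 0 := by linarith
  have hT : ∑ l ∈ P, ψ l * A l = ∑ l ∈ P, A l * A l := Finset.sum_congr rfl hA
  have hU : 0 ≤ ∑ l ∈ P, A l * A l := Finset.sum_nonneg (fun l _ => mul_self_nonneg _)
  have e1 : ∀ J j, (ψ j - (A j - A J) / p) * ((A j - A J) / p)
      = ψ j * A j / p - A J * (ψ j / p) - A j * A j / p ^ 2 + A J * (2 * A j / p ^ 2)
        - A J * A J / p ^ 2 := by
    intro J j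
    field_simp
    ring
  have s1 : ∑ J ∈ P, ∑ j ∈ P, ψ j * A j / p = ∑ l ∈ P, A l * A l := by
    rw [Finset.sum_const, nsmul_eq_mul, ← Finset.sum_div, hT, ← hp]
    field_simp
  have s2 : ∑ J ∈ P, ∑ j ∈ P, A J * (ψ j / p) = (∑ l ∈ P, A l) * (∑ l ∈ P, ψ l) / p := by
    simp only [← Finset.mul_sum]
    rw [← Finset.sum_mul, ← Finset.sum_div]
    ring
  have s3 : ∑ J ∈ P, ∑ j ∈ P, A j * A j / p ^ 2 = (∑ l ∈ P, A l * A l) / p := by
    rw [Finset.sum_const, nsmul_eq_mul, ← Finset.sum_div, ← hp]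
    field_simp
  have s4 : ∑ J ∈ P, ∑ j ∈ P, A J * (2 * A j / p ^ 2) = 2 * (∑ l ∈ P, A l) ^ 2 / p ^ 2 := by
    simp only [← Finset.mul_sum]
    rw [← Finset.sum_mul, ← Finset.sum_div, ← Finset.mul_sum]
    ring
  have s5 : ∑ J ∈ P, ∑ j ∈ P, A J * A J / p ^ 2 = (∑ l ∈ P, A l * A l) / p := by
    simp only [Finset.sum_const, nsmul_eq_mul]
    rw [← Finset.mul_sum, ← Finset.sum_div, ← hp]
    field_simp
  simp only [e1, Finset.sum_sub_distrib, Finset.sum_add_distrib]
  rw [s1, s2, s3, s4, s5]
  have hB : ∑ l ∈ P, ψ l = (∑ l ∈ P, A l) / p := by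
    rw [← hcen]
    field_simp
  rw [hB]
  have h3 : (∑ l ∈ P, A l * A l) - (∑ l ∈ P, A l) * ((∑ l ∈ P, A l) / p) / p
      - (∑ l ∈ P, A l * A l) / p + 2 * (∑ l ∈ P, A l) ^ 2 / p ^ 2 - (∑ l ∈ P, A l * A l) / p
      = (∑ l ∈ P, A l * A l) * (1 - 2 / p) + ((∑ l ∈ P, A l) / p) ^ 2 := by
    field_simp
    ring
  rw [h3]
  have h4 : 0 ≤ 1 - 2 / p := by
    rw [sub_nonneg, div_le_one (by linarith)]
    exact hp2
  exact add_nonneg (mul_nonneg hU h4) (sq_nonneg _)

end algebra

section swap

variable {n : ℕ} {r : Fin 3 → ℕ} {c : Fin n → ℕ}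

/-- Exchanging two rows with equal row sums. -/
def swapRows (k a : Fin 3) (hr : r k = r a) (x : CT 3 n r c) : CT 3 n r c :=
  ⟨fun i => x.1 (Equiv.swap k a i), by
    constructor
    · intro i
      rw [x.2.1]
      by_cases e1 : i = k
      · rw [e1, Equiv.swap_apply_left, hr]
      · by_cases e2 : i = a
        · rw [e2, Equiv.swap_apply_right, hr]
        · rw [Equiv.swap_apply_of_ne_of_ne e1 e2]
    · intro j
      rw [← x.2.2 j]
      exact Equiv.sum_comp (Equiv.swap k a) (fun i => x.1 i j)⟩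

theorem swapRows_val (k a : Fin 3) (hr : r k = r a) (x : CT 3 n r c) (i : Fin 3) :
    (swapRows k a hr x).1 i = x.1 (Equiv.swap k a i) := rfl

theorem swapRows_swapRows (k a : Fin 3) (hr : r k = r a) (x : CT 3 n r c) :
    swapRows k a hr (swapRows k a hr x) = x := by
  apply Subtype.ext
  funext i
  rw [swapRows_val, swapRows_val, Equiv.swap_apply_self]

end swap

section certificate

variable {n : ℕ} {r : Fin 3 → ℕ} {c : Fin n → ℕ} {k a b : Fin 3}

/-- The dual certificate for two unit rows. -/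
theorem dual_two_unit (hka : k ≠ a) (hkb : k ≠ b) (hab : a ≠ b) (hk : r k = 1) (ha : r a = 1)
    (φ : CT 3 n r c → ℝ) (hφ : ∀ x y : CT 3 n r c, x.1 k = y.1 k → φ x = φ y)
    (hsum : ∑ x, φ x = 0) :
    ∃ z1 z2 : CT 3 n r c → ℝ, (∀ x, φ x = z1 x + z2 x) ∧
      (∀ x0 : CT 3 n r c,
        ∑ x ∈ univ.filter (fun x : CT 3 n r c => x.1 a = x0.1 a), z1 x = 0) ∧
      (∀ x0 : CT 3 n r c,
        ∑ x ∈ univ.filter (fun x : CT 3 n r c => x.1 b = x0.1 b), z2 x = 0) ∧
      0 ≤ ∑ x, z1 x * z2 x := by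
  classical
  by_cases hne : Nonempty (CT 3 n r c)
  swap
  · refine ⟨fun _ => 0, fun _ => 0, fun x => absurd ⟨x⟩ hne, fun x0 => absurd ⟨x0⟩ hne,
      fun x0 => absurd ⟨x0⟩ hne, ?_⟩
    simp
  obtain ⟨xx⟩ := hne
  have hb := total_of_table hka hkb hab hk ha xx
  set P : Finset (Fin n) := univ.filter (fun l => 1 ≤ c l) with hP
  set p : ℝ := (P.card : ℝ) with hp
  -- the function `φ` on arrays
  set φ' : (Fin 3 → Fin n → ℕ) → ℝ := fun M =>
    if h : (∀ i, ∑ j, M i j = r i) ∧ ∀ j, ∑ i, M i j = c j then φ ⟨M, h⟩ else 0 with hφ'def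
  have hφ' : ∀ x : CT 3 n r c, φ x = φ' x.1 := by
    intro x
    rw [hφ'def]
    simp only
    rw [dif_pos x.2]
  -- the function `φ` on columns
  set ψ : Fin n → ℝ := fun j =>
    if h : ∃ J, Adm c J j then φ' (mkT k a c h.choose j) else 0 with hψdef
  have hψ : ∀ J j, Adm c J j → φ' (mkT k a c J j) = ψ j := by
    intro J j hadm
    have hex : ∃ J, Adm c J j := ⟨J, hadm⟩
    rw [hψdef]
    simp only
    rw [dif_pos hex]
    have h1 := hφ (mkCT hka hkb hab hk ha hb J j hadm)
      (mkCT hka hkb hab hk ha hb hex.choose j hex.choose_spec)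
      (by
        funext l
        rw [mkCT_val, mkCT_val, mkT_k, mkT_k])
    rw [hφ', hφ', mkCT_val, mkCT_val] at h1
    exact h1
  set A : Fin n → ℝ := fun l => if c l = 1 then ψ l else 0 with hAdef
  set Z2 : (Fin 3 → Fin n → ℕ) → ℝ := fun M =>
    (∑ l, (M k l : ℝ) * A l - ∑ l, (M a l : ℝ) * A l) / p with hZ2def
  have hZ2 : ∀ J j, Z2 (mkT k a c J j) = (A j - A J) / p := by
    intro J j
    rw [hZ2def]
    simp only
    have e1 : ∑ l, (mkT k a c J j k l : ℝ) * A l = A j := by
      simp only [mkT_k]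
      rw [Finset.sum_eq_single j]
      · rw [if_pos rfl]
        simp
      · intro l _ hl
        rw [if_neg hl]
        simp
      · intro h
        exact absurd (Finset.mem_univ j) h
    have e2 : ∑ l, (mkT k a c J j a l : ℝ) * A l = A J := by
      simp only [mkT_a hka]
      rw [Finset.sum_eq_single J]
      · rw [if_pos rfl]
        simp
      · intro l _ hl
        rw [if_neg hl]
        simp
      · intro h
        exact absurd (Finset.mem_univ J) h
    rw [e1, e2]
  -- centring
  have hcen : p * ∑ l ∈ P, ψ l = ∑ l ∈ P, A l := by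
    have h1 : ∑ x : CT 3 n r c, φ' x.1 = 0 := by
      rw [← hsum]
      exact Finset.sum_congr rfl (fun x _ => (hφ' x).symm)
    rw [sum_CT hka hkb hab hk ha hb φ'] at h1
    have h2 : ∑ J, ∑ j, (if Adm c J j then φ' (mkT k a c J j) else 0)
        = ∑ J, ∑ j, (if Adm c J j then (fun _ j => ψ j) J j else 0) := by
      refine Finset.sum_congr rfl (fun J _ => Finset.sum_congr rfl (fun j _ => ?_))
      by_cases hadm : Adm c J j
      · rw [if_pos hadm, if_pos hadm, hψ J j hadm]
      · rw [if_neg hadm, if_neg hadm]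
    rw [h2, adm_sum2 c (fun _ j => ψ j)] at h1
    simp only [Finset.sum_const, nsmul_eq_mul] at h1
    rw [← hP, ← hp] at h1
    linarith
  refine ⟨fun x => φ x - Z2 x.1, fun x => Z2 x.1, fun x => by ring, ?_, ?_, ?_⟩
  · -- classes of row `a`
    intro x0
    obtain ⟨J0, j0, hadm0, hx0⟩ := exists_rep hka hkb hab hk ha x0
    have hJ0 : ∀ l, x0.1 a l = if l = J0 then 1 else 0 := by
      intro l
      rw [hx0, mkT_a hka]
    have h1 : ∑ x ∈ univ.filter (fun x : CT 3 n r c => x.1 a = x0.1 a), (φ x - Z2 x.1)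
        = ∑ x ∈ univ.filter (fun x : CT 3 n r c => x.1 a = x0.1 a),
            (fun M => φ' M - Z2 M) x.1 :=
      Finset.sum_congr rfl (fun x _ => by rw [hφ' x])
    rw [h1, sum_CT_row hka hkb hab hk ha hb x0 J0 hJ0 (fun M => φ' M - Z2 M)]
    have h2 : ∑ j, (if Adm c J0 j then (fun M => φ' M - Z2 M) (mkT k a c J0 j) else 0)
        = ∑ j, (if Adm c J0 j then (fun j => ψ j - (A j - A J0) / p) j else 0) := by
      refine Finset.sum_congr rfl (fun j _ => ?_)
      by_cases hadm : Adm c J0 j
      · rw [if_pos hadm, if_pos hadm]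
        simp only
        rw [hψ J0 j hadm, hZ2]
      · rw [if_neg hadm, if_neg hadm]
    rw [h2, adm_sum1 c J0 hadm0.1 (fun j => ψ j - (A j - A J0) / p), ← hP]
    have hJ0P : J0 ∈ P := by
      rw [hP]
      exact Finset.mem_filter.mpr ⟨Finset.mem_univ _, hadm0.1⟩
    rw [alg_row P ψ A J0 hJ0P hcen]
    by_cases h3 : c J0 = 1
    · rw [if_pos h3]
      simp only [hAdef, if_pos h3]
      ring
    · rw [if_neg h3]
      simp only [hAdef, if_neg h3]
      ring
  · -- classes of row `b`
    intro x0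
    have hr : r k = r a := hk.trans ha.symm
    refine Finset.sum_involution (fun x _ => swapRows k a hr x) ?_ ?_ ?_ ?_
    · intro x _
      rw [hZ2def]
      simp only
      rw [swapRows_val, swapRows_val, Equiv.swap_apply_left, Equiv.swap_apply_right]
      ring
    · intro x _ hx0 hfix
      apply hx0
      have h1 : Z2 (swapRows k a hr x).1 = - Z2 x.1 := by
        rw [hZ2def]
        simp only
        rw [swapRows_val, swapRows_val, Equiv.swap_apply_left, Equiv.swap_apply_right]
        ring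
      rw [hfix] at h1
      linarith
    · intro x hx
      rw [Finset.mem_filter] at hx ⊢
      refine ⟨Finset.mem_univ _, ?_⟩
      rw [swapRows_val, Equiv.swap_apply_of_ne_of_ne (Ne.symm hkb) (Ne.symm hab)]
      exact hx.2
    · intro x _
      exact swapRows_swapRows k a hr x
  · -- the cross term
    have h1 : ∑ x : CT 3 n r c, (φ x - Z2 x.1) * Z2 x.1
        = ∑ x : CT 3 n r c, (fun M => (φ' M - Z2 M) * Z2 M) x.1 :=
      Finset.sum_congr rfl (fun x _ => by rw [hφ' x])
    rw [h1, sum_CT hka hkb hab hk ha hb (fun M => (φ' M - Z2 M) * Z2 M)]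
    have h2 : ∑ J, ∑ j, (if Adm c J j then (fun M => (φ' M - Z2 M) * Z2 M) (mkT k a c J j)
          else 0)
        = ∑ J, ∑ j, (if Adm c J j then
            (fun J j => (ψ j - (A j - A J) / p) * ((A j - A J) / p)) J j else 0) := by
      refine Finset.sum_congr rfl (fun J _ => Finset.sum_congr rfl (fun j _ => ?_))
      by_cases hadm : Adm c J j
      · rw [if_pos hadm, if_pos hadm]
        simp only
        rw [hψ J j hadm, hZ2]
      · rw [if_neg hadm, if_neg hadm]
    rw [h2, adm_sum2 c (fun J j => (ψ j - (A j - A J) / p) * ((A j - A J) / p)), ← hP]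
    have h3 : ∑ J ∈ P, (if c J = 1 then
        (fun J j => (ψ j - (A j - A J) / p) * ((A j - A J) / p)) J J else 0) = 0 := by
      refine Finset.sum_eq_zero (fun J _ => ?_)
      simp
    rw [h3, sub_zero]
    by_cases hcard : 2 ≤ P.card
    · have hA : ∀ l ∈ P, ψ l * A l = A l * A l := by
        intro l _
        by_cases h4 : c l = 1
        · simp only [hAdef, if_pos h4]
        · simp only [hAdef, if_neg h4]
          ring
      exact alg_cross P ψ A hA hcard hcen
    · have hle : P.card ≤ 1 := by omega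
      have heq := Finset.card_le_one.mp hle
      refine Finset.sum_nonneg (fun J hJ => Finset.sum_nonneg (fun j hj => ?_))
      rw [heq J hJ j hj]
      simp

/-- The three-row inequality for two unit rows. -/
theorem threeRow_of_two_unit {n : ℕ} (r : Fin 3 → ℕ) (c : Fin n → ℕ) (k a b : Fin 3)
    (hka : k ≠ a) (hkb : k ≠ b) (hab : a ≠ b) (hk : r k = 1) (ha : r a = 1)
    (f : CT 3 n r c → ℝ) :
    ∑ q ∈ (univ : Finset (Fin 3)).powersetCard 2, ip f (R q f) ≤ 2 * ip f f + ip f (R univ f) :=
  threeRow_of_dual r c k a b hka hkb hab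
    (fun φ hφ hsum => dual_two_unit hka hkb hab hk ha φ hφ hsum) f

theorem exists_third : ∀ a b : Fin 3, a ≠ b → ∃ d : Fin 3, a ≠ d ∧ b ≠ d := by
  decide

/-- **The three-row inequality when two of the three row sums are at most `1`.** -/
theorem threeRow_of_two_small {n : ℕ} (r : Fin 3 → ℕ) (c : Fin n → ℕ) (a b : Fin 3)
    (hab : a ≠ b) (ha : r a ≤ 1) (hb : r b ≤ 1) (f : CT 3 n r c → ℝ) :
    ∑ q ∈ (univ : Finset (Fin 3)).powersetCard 2, ip f (R q f)
      ≤ 2 * ip f f + ip f (R univ f) := by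
  by_cases ha0 : r a = 0
  · exact threeRow_of_zero_row r c a ha0 f
  by_cases hb0 : r b = 0
  · exact threeRow_of_zero_row r c b hb0 f
  obtain ⟨d, had, hbd⟩ := exists_third a b hab
  exact threeRow_of_two_unit r c a b d hab had hbd (by omega) (by omega) f

end certificate

end Vale.Agent.Lib.P328.H48
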